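import Vale.Agent.P128.EARN.Main

/-! P128 block B4: compactness. The frozen statements `conv0_lsc`, `conv_of_conv0` and `comp`
are proved in B3/Main (they need neither rectifiability nor the block EARN). -/
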